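import Crest.Agent.X261.End.U
import Crest.Agent.X261.Rel.Defs
import Crest.Agent.X261.Gauss.Stm
import Crest.Agent.X261.E0.Defs
import Crest.Agent.X261.Bog.Defs
import Crest.Agent.X261.Fib.Ind
import Crest.Agent.X261.Frb.Main
import Crest.Agent.X261.Cov.B

-- ▼ part X261/B88/Defs
section

/-!
# Row 261, B (helper88), file `Defs`: the packages of the amenable half

* `MG Z`   : the kernel of the periods;
* `Top Z`  : the map `a` has a regular point;
* `Fb Z`   : the fibres over a nonempty open set are connected and regular;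
* `SetupStmt`, `FibStmt`, `FamStmt`, `NIStmt`, `RelStmt`.
-/

set_option autoImplicit false
set_option linter.unusedSectionVars false

open Set

namespace Crest.Agent.X261.B88

open Crest.Agent.R275.Geo Crest.Agent.R275.Core144 Crest.Agent.R275.GC293
open Crest.Agent.R273.Defs_333 Crest.Agent.R273.Kah_333 Crest.Agent.R273.UCov_914
open Crest.Agent.R281.ThnM_280 (Crit)
open Crest.Agent.R189 (Amen)
open Crest.Agent.X261.Grp Crest.Agent.X261.End
open Crest.Agent.X261.Rel.Act (Act)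

noncomputable section

section defs

variable {n : ℕ} {X : Type} [TopologicalSpace X] {A : Atl n X} {Γ : Type} [Group Γ]
  {D : MonD A Γ} {N : Subgroup Γ} {q : ℕ}

/-- the elements of `H` which fix the map `a` -/
def MG (Z : AQ D N q) : Subgroup Γ where
  carrier := {g | g ∈ Z.H ∧ ∀ e, Z.a (g • e) = Z.a e}
  one_mem' := ⟨Z.H.one_mem, fun e => by rw [one_smul]⟩
  mul_mem' := fun {g h} hg hh => ⟨Z.H.mul_mem hg.1 hh.1, fun e => by rw [mul_smul, hg.2, hh.2]⟩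
  inv_mem' := fun {g} hg => ⟨Z.H.inv_mem hg.1, fun e => by rw [← hg.2, smul_inv_smul]⟩

/-- the image of `MG` in the quotient -/
def KG [N.Normal] (Z : AQ D N q) : Subgroup (Γ ⧸ N) := (MG Z).map (QuotientGroup.mk' N)

/-- `a` has a regular point -/
def Top (Z : AQ D N q) : Prop := ∃ e, e ∉ Crit (D.atl Γ) univ Z.a

/-- connected regular fibres -/
def Fb (Z : AQ D N q) : Prop :=
  ∃ O : Set (Cn q), IsOpen O ∧ O.Nonempty ∧ ∀ t ∈ O, (Z.a ⁻¹' {t}).Nonempty ∧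
    IsPreconnected (Z.a ⁻¹' {t}) ∧ ∀ e, Z.a e = t → e ∉ Crit (D.atl Γ) univ Z.a

end defs

/-- B0 (helper31) -/
def SetupStmt : Prop :=
  ∀ (n : ℕ) (X : Type) [TopologicalSpace X] [T2Space X] [CompactSpace X] [ConnectedSpace X]
    (A : Atl n X) [Finite A.ι], GoodA A → Part A → Kah A → E0.NoBog A → Bog.NoBog A →
    ∀ (Γ : Type) [Group Γ] (D : MonD A Γ), SimplyConnectedSpace (D.cov Γ) →
    ∀ (N : Subgroup Γ) [N.Normal], ∃ (q : ℕ) (Z : AQ D N q), Top Z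

/-- FIB (helper16) -/
def FibStmt : Prop :=
  ∀ (n : ℕ) (X : Type) [TopologicalSpace X] [T2Space X] [CompactSpace X] [ConnectedSpace X]
    (A : Atl n X) [Finite A.ι], GoodA A → Part A → Kah A → E0.NoBog A → Bog.NoBog A →
    ∀ (Γ : Type) [Group Γ] (D : MonD A Γ), ConnectedSpace (D.cov Γ) →
    ∀ (N : Subgroup Γ) (q : ℕ) (Z : AQ D N q), Top Z → Fb Z

/-- FAM (helpers 3, 12, 94, 20, 79) -/
def FamStmt : Prop :=
  ∀ (n : ℕ) (X : Type) [TopologicalSpace X] [T2Space X] [CompactSpace X] [ConnectedSpace X]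
    (A : Atl n X) [Finite A.ι], GoodA A → Part A → Kah A →
    ∀ (Γ : Type) [Group Γ] (D : MonD A Γ), ConnectedSpace (D.cov Γ) →
    ∀ (N : Subgroup Γ) [N.Normal] (q : ℕ) (Z : AQ D N q), Top Z →
    ∀ (M : Subgroup Γ), M.Normal → FI M (MG Z) →
    ∀ (H : Type) [NormedAddCommGroup H] [InnerProductSpace ℂ H] [CompleteSpace H] (a : Act M H),
      (∀ m : M, (m : Γ) ∈ N → ∀ x, a.α m x = x) → Nonempty (Rel.Min D Z.a a N)

/-- B4 (helper2) -/
def NIStmt : Prop := FamStmt →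
  ∀ (n : ℕ) (X : Type) [TopologicalSpace X] [T2Space X] [CompactSpace X] [ConnectedSpace X]
    (A : Atl n X) [Finite A.ι], GoodA A → Part A → Kah A →
    ∀ (Γ : Type) [Group Γ] (D : MonD A Γ), ConnectedSpace (D.cov Γ) →
    ∀ (N : Subgroup Γ) [N.Normal], JN (Γ ⧸ N) → ∀ (q : ℕ) (Z : AQ D N q), Top Z → Fb Z →
      ¬ VInd (KG Z)

/-- REL (helper34) -/
def RelStmt : Prop := FamStmt →
  ∀ (n : ℕ) (X : Type) [TopologicalSpace X] [T2Space X] [CompactSpace X] [ConnectedSpace X]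
    (A : Atl n X) [Finite A.ι], GoodA A → Part A → Kah A →
    ∀ (Γ : Type) [Group Γ] (D : MonD A Γ), ConnectedSpace (D.cov Γ) →
    ∀ (N : Subgroup Γ) [N.Normal], JN (Γ ⧸ N) → Amen (Γ ⧸ N) →
    ∀ (q : ℕ) (Z : AQ D N q), Top Z → Fb Z → Infinite (KG Z) → ¬ VInd (KG Z) →
      ∃ (H : Type) (_ : NormedAddCommGroup H) (_ : InnerProductSpace ℂ H) (_ : CompleteSpace H)
        (Φ : Gauss.Frm D q H), Nonempty (Gauss.Up Φ N) ∧ Φ.NoFix (MG Z)

end

end Crest.Agent.X261.B88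
end

-- ▼ part X261/B88/Bas

/-!
# Row 261, B (helper88), file `Bas`: basic facts on the reduced Albanese datum

* group theory of `MG`, `KG`; the matrix `Lm` of the linear part, `norm_det`;
* `dat` : the data of FIB; `prop`, `prop_fi` : properness; `fg_MG`;
* `dW_ne`, `a_hol`, `a_tr`, `a_eqv`, `tau_ne`, `up_sub` : the easy fields of `Frm` and `Up`.
-/

set_option autoImplicit false
set_option linter.unusedSectionVars false

open Set Filter Topology
open scoped commutatorElement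

namespace Crest.Agent.X261.B88

open Crest.Agent.R275.Geo Crest.Agent.R275.Core144
open Crest.Agent.R273.UCov_914
open Crest.Agent.R281.ThnM_280 (Crit surj_of_not_crit)
open Crest.Agent.R189 (Amen)
open Crest.Agent.X261.Grp Crest.Agent.X261.End
open Crest.Agent.X261.Top (dW)
open Crest.Agent.X261.Rel (aV)
open Crest.Agent.X261.Fib (E)

noncomputable section

/-- a group acting cocompactly on a connected set is finitely generated -/
theorem fg_of_conn {M G : Type*} [TopologicalSpace M] [Group G] [MulAction G M]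
    [ContinuousConstSMul G M] (K : Subgroup G) {F U : Set M} (hF : IsPreconnected F)
    (hne : F.Nonempty) (hinv : ∀ g ∈ K, ∀ x ∈ F, g • x ∈ F) (hU : IsOpen U)
    (hc : ∀ x ∈ F, ∃ g ∈ K, g • x ∈ U) (hfin : {g : G | ∃ e ∈ U, g • e ∈ U}.Finite) : K.FG := by
  set S : Set G := {g : G | ∃ e ∈ U, g • e ∈ U} ∩ K with hS
  have hle : Subgroup.closure S ≤ K := (Subgroup.closure_le K).2 inter_subset_right
  refine (Subgroup.fg_iff K).2 ⟨S, le_antisymm hle fun g hg => ?_, hfin.inter_of_left _⟩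
  by_contra hn
  have ho : ∀ T : Set G, IsOpen (⋃ h ∈ T, (fun x : M => h • x) ⁻¹' U) := fun T =>
    isOpen_biUnion fun h _ => hU.preimage (continuous_const_smul h)
  obtain ⟨x, hx⟩ := hne
  obtain ⟨k, hk, hkx⟩ := hc x hx
  obtain ⟨y, -, h1, h2⟩ := hF _ _ (ho (Subgroup.closure S)) (ho (K \ Subgroup.closure S))
    (fun z hz => by
      obtain ⟨h, hh, h1⟩ := hc z hz
      by_cases h2 : h ∈ Subgroup.closure S
      · exact Or.inl (mem_biUnion h2 h1)
      · exact Or.inr (mem_biUnion (show h ∈ (K : Set G) \ Subgroup.closure S from ⟨hh, h2⟩) h1))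
    ⟨k • x, hinv k hk x hx, mem_biUnion (Subgroup.closure S).one_mem (by simpa using hkx)⟩
    ⟨g⁻¹ • k • x, hinv _ (K.inv_mem hg) _ (hinv k hk x hx),
      mem_biUnion (show g ∈ (K : Set G) \ Subgroup.closure S from ⟨hg, hn⟩) (by simpa using hkx)⟩
  obtain ⟨a, ha, h3⟩ := mem_iUnion₂.1 h1
  obtain ⟨b, hb, h4⟩ := mem_iUnion₂.1 h2
  have h5 : b * a⁻¹ ∈ Subgroup.closure S := Subgroup.subset_closure
    ⟨⟨a • y, h3, by rw [mul_smul, inv_smul_smul]; exact h4⟩, K.mul_mem hb.1 (K.inv_mem (hle ha))⟩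
  exact hb.2 (by simpa using (Subgroup.closure S).mul_mem h5 ha)

theorem fg_map {G G' : Type*} [Group G] [Group G'] {K : Subgroup G} (h : K.FG) (f : G →* G') :
    (K.map f).FG := by
  classical
  obtain ⟨S, rfl⟩ := h
  exact ⟨S.image f, by rw [Finset.coe_image, MonoidHom.map_closure]⟩

variable {n : ℕ} {X : Type} [TopologicalSpace X] {A : Atl n X} {Γ : Type} [Group Γ]
  {D : MonD A Γ} {N : Subgroup Γ} {q : ℕ} (Z : AQ D N q)

/-! ### groups -/

theorem a_H {g : Γ} (hg : g ∈ Z.H) (e : D.cov Γ) : Z.a (g • e) = Z.a e + Z.lam g := by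
  rw [Z.eqv, Z.LH g hg]; rfl


theorem a_MG {g : Γ} (hg : g ∈ MG Z) (e : D.cov Γ) : Z.a (g • e) = Z.a e := hg.2 e

theorem mem_MG [Nonempty (D.cov Γ)] {g : Γ} : g ∈ MG Z ↔ g ∈ Z.H ∧ Z.lam g = 0 :=
  and_congr_right fun hg => ⟨fun h => by
    obtain ⟨e⟩ := ‹Nonempty (D.cov Γ)›
    have h1 := h e
    rwa [a_H Z hg, add_eq_left] at h1, fun h e => by rw [a_H Z hg, h, add_zero]⟩

instance normal_MG : (MG Z).Normal := ⟨fun m hm g => ⟨Z.normal.conj_mem m hm.1 g, fun e => by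
  rw [mul_smul, mul_smul, Z.eqv g, hm.2, ← Z.eqv, smul_inv_smul]⟩⟩

instance normal_KG [N.Normal] : (KG Z).Normal :=
  (normal_MG Z).map _ (QuotientGroup.mk'_surjective N)

theorem lam_addOn [Nonempty (D.cov Γ)] : AddOn Z.H Z.lam := lam_add Z.eqv Z.LH

theorem comm_mem [Nonempty (D.cov Γ)] {g h : Γ} (hg : g ∈ Z.H) (hh : h ∈ Z.H) : ⁅g, h⁆ ∈ MG Z :=
  (mem_MG Z).2 ⟨comm_self_le _ (Subgroup.commutator_mem_commutator hg hh), (lam_addOn Z).comm hg hh⟩

theorem vam_MG [Nonempty (D.cov Γ)] : VAm (MG Z) := ⟨Z.H, Z.fi, fun _ ha _ hb => comm_mem Z ha hb⟩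

theorem amen_quot [Nonempty (D.cov Γ)] : Amen (Γ ⧸ MG Z) := ((va_quot_iff _).2 (vam_MG Z)).amen

theorem infinite_KG [Nonempty (D.cov Γ)] [N.Normal] (hJ : JN (Γ ⧸ N)) : Infinite (KG Z) := by
  by_contra h
  rw [not_infinite_iff_finite] at h
  have := hJ.fg
  exact hJ.not_vam_bot
    (((vam_MG Z).map _ (QuotientGroup.mk'_surjective N)).of_fi (FI.bot_iff.2 h))

/-! ### the linear part -/









theorem L_inv (g : Γ) (v : Cn q) : Z.L g⁻¹ (Z.L g v) = v := by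
  rw [← mul_apply_eq_comp, ← map_mul, inv_mul_cancel, map_one]; rfl

/-- `L g` as an equivalence -/
def Le (g : Γ) : Cn q ≃L[ℂ] Cn q :=
  ContinuousLinearEquiv.equivOfInverse (Z.L g) (Z.L g⁻¹) (L_inv Z g)
    fun v => by simpa using L_inv Z g⁻¹ v

/-- `L g` on `Fin q → ℂ` -/
def LE (g : Γ) : E q ≃L[ℂ] E q :=
  ((EuclideanSpace.equiv (Fin q) ℂ).symm.trans (Le Z g)).trans (EuclideanSpace.equiv (Fin q) ℂ)


/-! ### the data of FIB, properness -/

theorem disc_E : ∃ c : ℝ, 0 < c ∧ ∀ g ∈ Z.H, (Z.lam g).ofLp ≠ 0 → c ≤ ‖(Z.lam g).ofLp‖ := by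
  obtain ⟨c, hc, h⟩ := Z.disc
  let T : E q →L[ℂ] Cn q := (EuclideanSpace.equiv (Fin q) ℂ).symm.toContinuousLinearMap
  refine ⟨c / (‖T‖ + 1), by positivity, fun g hg h0 => ?_⟩
  have h1 := h g hg fun h2 => h0 (by rw [h2]; rfl)
  have h2 : ‖Z.lam g‖ ≤ ‖T‖ * ‖(Z.lam g).ofLp‖ := T.le_opNorm (Z.lam g).ofLp
  rw [div_le_iff₀ (by positivity)]
  nlinarith [norm_nonneg (Z.lam g).ofLp]

theorem dat (h : Top Z) : Fib.Mn.Dat D Z.H Z.a (LE Z) fun g => (Z.lam g).ofLp :=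
  ⟨Z.hol, fun g e => by rw [Z.eqv]; rfl, fun g hg v => by
    change (Z.L g (WithLp.toLp 2 v)).ofLp = v
    rw [Z.LH g hg]; rfl, disc_E Z, h⟩

theorem cont_a : Continuous Z.a := Fib.Sec.cont_of_hol Z.hol



section cpt

variable [CompactSpace X] [T2Space X] [Finite A.ι]

/-- `a` is proper modulo `MG` -/
theorem prop {K : Set (Cn q)} (hK : IsCompact K) :
    ∃ C : Set (D.cov Γ), IsCompact C ∧ ∀ e, Z.a e ∈ K → ∃ g ∈ MG Z, g • e ∈ C := by
  rcases isEmpty_or_nonempty (D.cov Γ) with h | h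
  · exact ⟨∅, isCompact_empty, fun e => h.elim e⟩
  have := Z.fi
  have hc := (EuclideanSpace.equiv (Fin q) ℂ).continuous
  obtain ⟨C0, hC0, hf0⟩ := D.exists_fund
  obtain ⟨C, hC, hf⟩ := Fib.Sec.exists_fund_sub (H := Z.H) hC0 hf0
  obtain ⟨C', h1, h2⟩ := Fib.Sec.prop_of (a := fun e => (Z.a e).ofLp)
    (lam := fun g => (Z.lam g).ofLp) (hc.comp (cont_a Z)) (fun g hg e => by rw [a_H Z hg]; rfl)
    (disc_E Z) hC hf (hK.image hc)
  refine ⟨C', h1, fun e he => ?_⟩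
  obtain ⟨g, hg, h3, h4⟩ := h2 e ⟨_, he, rfl⟩
  exact ⟨g, (mem_MG Z).2 ⟨hg, congrArg (WithLp.toLp 2) h3⟩, h4⟩

/-- `a` is proper modulo a subgroup of finite index of `MG` -/
theorem prop_fi {M : Subgroup Γ} (hM : FI M (MG Z)) {K : Set (Cn q)} (hK : IsCompact K) :
    ∃ C : Set (D.cov Γ), IsCompact C ∧ ∀ e, Z.a e ∈ K → ∃ g ∈ M, g • e ∈ C := by
  obtain ⟨C, h1, h2⟩ := prop Z hK
  obtain ⟨T, -, h3⟩ := hM.exists_cover
  refine ⟨⋃ t ∈ T, (fun e => t⁻¹ • e) '' C,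
    T.isCompact_biUnion fun t _ => h1.image (continuous_const_smul _), fun e he => ?_⟩
  obtain ⟨g, hg, h4⟩ := h2 e he
  obtain ⟨t, ht, h5⟩ := h3 g hg
  exact ⟨_, h5, mem_iUnion₂.2 ⟨t, ht, _, h4, (mul_smul _ _ _).symm⟩⟩


theorem surj_a [PreconnectedSpace (D.cov Γ)] (h : Top Z) : Function.Surjective Z.a := by
  have := Z.fi
  obtain ⟨S, hS⟩ := (dat Z h).exists_of
  intro t
  obtain ⟨e, he⟩ := hS.onto t.ofLp
  rw [hS.a_eq] at he
  exact ⟨e, congrArg (WithLp.toLp 2) he⟩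

theorem fg_MG {Z : AQ D N q} (h : Fb Z) : (MG Z).FG := by
  obtain ⟨O, -, ⟨t, ht⟩, h1⟩ := h
  obtain ⟨h2, h3, -⟩ := h1 t ht
  obtain ⟨C, hC, h4⟩ := prop Z (isCompact_singleton (x := t))
  have := Cov.B.locallyCompact D (F := Γ)
  obtain ⟨C', h5, h6⟩ := exists_compact_superset hC
  refine fg_of_conn (MG Z) h3 h2 (fun g hg e he => (hg.2 e).trans he) isOpen_interior
    (fun e he => (h4 e he).imp fun g hg => ⟨hg.1, h6 hg.2⟩) ((D.finite_deck h5 h5).subset ?_)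
  rintro g ⟨e, h7, h8⟩
  exact ⟨e, interior_subset h7, interior_subset h8⟩

theorem fg_KG [N.Normal] {Z : AQ D N q} (h : Fb Z) : (KG Z).FG := fg_map (fg_MG h) _

end cpt

/-! ### the easy fields of `Frm` and `Up` -/

theorem a_diff (i : A.ι) (v : Γ) :
    DifferentiableOn ℂ (fun z => aV D Z.a i v ((A.e i).symm z)) (A.e i).target := Z.hol (i, v)

theorem surj_aV {i : A.ι} {v : Γ} {x : X} (hx : x ∈ (A.e i).source)
    (h : D.pt i v x ∉ Crit (D.atl Γ) univ Z.a) :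
    Function.Surjective (fderiv ℂ (fun z => aV D Z.a i v ((A.e i).symm z)) (A.e i x)) :=
  surj_of_not_crit (mem_univ _) h (i := (i, v)) (D.pt_mem_source (p := (i, v)) hx)

theorem q_le (h : Top Z) : q ≤ n := by
  obtain ⟨e, he⟩ := h
  obtain ⟨p, hp⟩ := (D.atl Γ).cover e
  have h1 := LinearMap.finrank_le_finrank_of_surjective
    (f := (fderiv ℂ (fun z => Z.a (((D.atl Γ).e p).symm z)) ((D.atl Γ).e p e) : Cn n →ₗ[ℂ] Cn q))
    (surj_of_not_crit (mem_univ _) he hp)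
  rwa [finrank_euclideanSpace_fin, finrank_euclideanSpace_fin] at h1

theorem dW_ne {i : A.ι} {v : Γ} {x : X} (hx : x ∈ (A.e i).source)
    (h : D.pt i v x ∉ Crit (D.atl Γ) univ Z.a) : dW A i (aV D Z.a i v) x ≠ 0 := by
  rw [Frb.Main.dW_eq ((a_diff Z i v).differentiableAt
    ((A.e i).open_target.mem_nhds ((A.e i).map_source hx)))]
  exact Frb.Main.wdg_row_ne (Nat.add_sub_cancel' (q_le Z ⟨_, h⟩)) (surj_aV Z hx h)









theorem up_sub (P : Subgroup Γ) (hP : P ≤ N)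
    (h : ∀ t ∈ Submodule.span ℝ (Z.lam '' P), Complex.I • t ∈ Submodule.span ℝ (Z.lam '' P)) :
    ∀ g ∈ P, Z.lam g = 0 :=
  fun g hg => Z.sub _ (image_mono hP) h _ ⟨g, hg, rfl⟩

end

end Crest.Agent.X261.B88
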